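import Vale.Agent.P141.PL.H620.Fin2

/-!
# P141: truncations of the trilinear Hilbert transform, powers of the double logarithm
-/

open MeasureTheory Set Filter Topology
open scoped ENNReal SchwartzMap
open Vale.Agent.P141

/-- **Double logarithm.** For one exponent `m`: (1) at every Hoelder tuple with `2 < p_i ≤ ∞` and
`1 ≤ r < 2` the truncations of the trilinear Hilbert transform are bounded with the constant
`C (1 + log (2 + log (R / ε))) ^ m`; (2) at every Hoelder tuple with `p_i < ∞`, `1 < r` they are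
bounded with `C (1 + log (R / ε)) ^ s` for every `s > max 0 (2 / p_i - 1) (1 - 2 / r)`; (3) the
trilinear Hilbert transform itself, one function regular and of bounded support. -/
theorem Vale.Agent.Results.P141.DoubleLog.result : ∃ m : ℕ,
    (∀ p₁ p₂ p₃ r : ℝ≥0∞, IsHolderTuple p₁ p₂ p₃ r → 2 < p₁ → 2 < p₂ → 2 < p₃ →
      1 ≤ r → r < 2 →
      ∃ C : ℝ, ∀ f₁ f₂ f₃ : 𝓢(ℝ, ℂ), ∀ ε R : ℝ, 0 < ε → ε < R →
        eLpNorm (truncTHT f₁ f₂ f₃ ε R) r volume ≤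
          ENNReal.ofReal (C * (1 + Real.log (2 + Real.log (R / ε))) ^ m) *
            eLpNorm f₁ p₁ volume * eLpNorm f₂ p₂ volume * eLpNorm f₃ p₃ volume) ∧
    (∀ p₁ p₂ p₃ r : ℝ≥0∞, IsHolderTuple p₁ p₂ p₃ r → p₁ ≠ ∞ → p₂ ≠ ∞ → p₃ ≠ ∞ → 1 < r →
      ∀ s : ℝ, 0 < s → 2 * (p₁⁻¹).toReal - 1 < s → 2 * (p₂⁻¹).toReal - 1 < s →
      2 * (p₃⁻¹).toReal - 1 < s → 1 - 2 * (r⁻¹).toReal < s →
      ∃ C : ℝ, ∀ f₁ f₂ f₃ : 𝓢(ℝ, ℂ), ∀ ε R : ℝ, 0 < ε → ε < R →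
        eLpNorm (truncTHT f₁ f₂ f₃ ε R) r volume ≤
          ENNReal.ofReal (C * (1 + Real.log (R / ε)) ^ s) *
            eLpNorm f₁ p₁ volume * eLpNorm f₂ p₂ volume * eLpNorm f₃ p₃ volume) ∧
    (∃ C : ℝ, ∀ f : Fin 3 → 𝓢(ℝ, ℂ), ∀ j : Fin 3, ∀ a l N : ℝ, 0 < l → 2 ≤ N →
      (∀ x, x ∉ Icc a (a + l) → f j x = 0) →
      (∀ s, eLpNorm (fun x => f j (x - s) - f j x) 6 volume ≤
          ENNReal.ofReal (N / l * |s|) * eLpNorm (f j) 6 volume) →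
      eLpNorm (THT (f 0) (f 1) (f 2)) (6 / 5) volume ≤
        ENNReal.ofReal (C * (1 + Real.log (2 + Real.log N)) ^ m) *
          ∏ i, eLpNorm (f i) (if i = j then 6 else 3) volume) :=
  Vale.Agent.P141.PL.H620.final_closed
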